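import Vale.Agent.P183CH4.TB
import Vale.Agent.P183BD.CHI
import Vale.Agent.P183CH3.NJ

/-!
Block CH4: the characters of the torus of the fixed point group.
-/

namespace Vale.Agent.P183CH4

open Subgroup Vale.Agent.P183CH Vale.Agent.P183CH3 Vale.Agent.P183BD

variable {R : RS} {k : Type} [Field k] {G : Type} [Group G] {Γ : RG R k G} {p : ℕ} {σ : G →* G}
  {π : Equiv.Perm (Fin R.r)} {a : Fin R.r → ℕ} {e f d : ℕ}

/-- the characters that are trivial on `H` -/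
def Kill (hΓ : Γ.Ok) (H : Subgroup G) : AddSubgroup R.Q where
  carrier := {γ | ∀ t ∈ H, hΓ.chi γ t = 1}
  add_mem' h1 h2 t ht := by rw [hΓ.chi_add, h1 t ht, h2 t ht, mul_one]
  zero_mem' t _ := hΓ.chi_zero t
  neg_mem' h t ht := by rw [hΓ.chi_neg, h t ht, inv_one]

theorem kl [Fact p.Prime] [CharP k p] [IsAlgClosed k] (c : SC Γ p σ π a e f d)
    (hJ : ∀ i, ∃ n ∈ fixP p σ, ∃ w, R.Lg {j | π.SameCycle i j} w ∧ Γ.Rep n w) :
    KL R p π a (Kill c.hΓ (Γ.T ⊓ fixP p σ)) := by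
  refine ⟨fun μ t ht => ?_, fun v hv => lk c.tw fun i => ?_⟩
  · rw [sub_eq_add_neg, c.hΓ.chi_add, c.hΓ.chi_neg, ← c.chi_sig _ ht.1, fix_of_mem ht.2,
      mul_inv_cancel]
  have h1 : 1 ≤ p ^ f := Nat.one_le_pow f p (Fact.out : p.Prime).pos
  have : NeZero ((p ^ f - 1 : ℕ) : k) := ⟨by
    rw [Nat.cast_sub h1, Nat.cast_pow, CharP.cast_eq_zero, zero_pow c.tw.fpos.ne']
    simp⟩
  have : NeZero (p ^ f - 1) := NeZero.of_neZero_natCast k
  obtain ⟨u, hu⟩ := HasEnoughRootsOfUnity.exists_primitiveRoot k (p ^ f - 1)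
  lift u to kˣ using hu.isUnit (NeZero.ne _)
  rw [IsPrimitiveRoot.coe_units_iff] at hu
  obtain ⟨t, ht, h2⟩ := tb c hJ hu i
  have h3 := (hu.zpow_eq_one_iff_dvd _).1 ((h2 v).symm.trans (hv t ht))
  rwa [Nat.cast_sub h1, Nat.cast_pow, Nat.cast_one] at h3

/-- The longest elements of the orbits have representatives in the fixed point group. -/
def XJ : Prop :=
  ∀ (R : RS) (p : ℕ) [Fact p.Prime] (G : Type) [Group G]
    (Γ : RG R (AlgebraicClosure (ZMod p)) G) (σ : G →* G) π a e f d, SC Γ p σ π a e f d →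
    ∀ i, ∃ n ∈ fixP p σ, ∃ w, R.Lg {j | π.SameCycle i j} w ∧ Γ.Rep n w

theorem ch4t_of (hX : XJ) : CH4T := by
  intro R Λ hR
  obtain ⟨b, hb⟩ := exists_nm_le Λ
  obtain ⟨M, hM⟩ : ∃ M : ℕ, (M : ℤ) = 2 * |R.A.det| * b + 2 :=
    ⟨_, Int.toNat_of_nonneg (by positivity)⟩
  obtain ⟨q₁, h1⟩ := exists_big hR M
  obtain ⟨q₂, h2⟩ := exists_orbit hR
  obtain ⟨C, q₃, h3⟩ := exists_order hR
  refine ⟨C, q₁ + q₂ + q₃, fun p _ G _ Γ σ π a e f d hΓ hσ hq => ?_⟩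
  have c : SC Γ p σ π a e f d := ⟨hR, hΓ, hσ⟩
  have hK := kl c (hX R p G Γ σ π a e f d c)
  refine ⟨fun l hl h0 => by_contra fun h => h0 (hK.small c.tw (fun t ht => by_contra fun h' =>
    h ⟨t, ht, h'⟩) fun i => ?_), fun γ hγ δ hδ l h => h2 p π a e f _ c.tw hK (by omega) γ hγ l δ hδ
      fun t ht => ?_, fun γ hγ => ?_⟩
  · have h4 : (M : ℤ) ≤ (p : ℤ) ^ a i := by exact_mod_cast h1 p π a e f c.tw (by omega) i
    have h5 := mul_le_mul_of_nonneg_left (hb l hl) (abs_nonneg R.A.det)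
    linarith
  · rw [sub_eq_add_neg, hΓ.chi_add, hΓ.chi_neg, hΓ.chi_smul, h t ht, ← Nat.cast_pow, zpow_natCast,
      mul_inv_cancel]
  let H : Subgroup (AlgebraicClosure (ZMod p))ˣ :=
    { carrier := hΓ.chi γ '' ((Γ.T ⊓ fixP p σ : Subgroup G) : Set G)
      mul_mem' := by
        rintro _ _ ⟨t, ht, rfl⟩ ⟨u, hu, rfl⟩
        exact ⟨t * u, mul_mem ht hu, hΓ.chi_mul hR γ ht.1 hu.1⟩
      one_mem' := ⟨1, one_mem _, hΓ.chi_one hR γ⟩
      inv_mem' := by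
        rintro _ ⟨t, ht, rfl⟩
        exact ⟨t⁻¹, inv_mem ht, hΓ.chi_inv hR γ ht.1⟩ }
  have hf : (H : Set (AlgebraicClosure (ZMod p))ˣ).Finite :=
    (hσ.fin.subset fun t ht => fix_of_mem ht.2).image _
  refine (Nat.sub_le _ _).trans (h3 p π a e f _ c.tw hK (by omega) γ hγ _
    ((Set.ncard_pos hf).2 ⟨1, H.one_mem⟩) fun t ht => ?_)
  rw [hΓ.chi_smul, zpow_natCast]
  exact congrArg Subtype.val (pow_card_eq_one' (G := H) (x := ⟨_, t, ht, rfl⟩))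

theorem ch4t : CH4T := ch4t_of fun _ _ _ _ _ _ _ _ _ _ _ _ c => c.exists_nJ

end Vale.Agent.P183CH4
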