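import Vale.Agent.P183CH3.Sig

/-!
Computations in a subsystem of type `A₂`.
-/

namespace Vale.Agent.P183CH4

open Subgroup Vale.Agent.P183CH Vale.Agent.P183CH3

variable {R : RS} {k : Type} [Field k] {G : Type} [Group G] {Γ : RG R k G} {i j : Fin R.r}

theorem B_comb (hR : R.Ok) (m n : ℤ) (u v : R.Q) : R.B (m • u + n • v) (m • u + n • v) =
    m * m * R.B u u + 2 * m * n * R.B u v + n * n * R.B v v := by
  rw [hR.B_add, hR.B_smul, hR.B_smul, hR.B_comm u, hR.B_comm v, hR.B_add, hR.B_add, hR.B_smul,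
    hR.B_smul, hR.B_smul, hR.B_smul, hR.B_comm v u]
  ring

theorem root_A2 (hR : R.Ok) (hij : R.A i j = -1) (hji : R.A j i = -1) {m n : ℤ} (hm : 0 < m)
    (hn : 0 < n) (h : m • R.α i + n • R.α j ∈ R.Φ) : m = 1 ∧ n = 1 := by
  obtain ⟨w, hw, l, hl, e⟩ := hR.exists_conj_J (J := {i, j}) h fun l hl => by
    rw [Set.mem_insert_iff, Set.mem_singleton_iff, not_or] at hl
    simp [RS.α, hl.1, hl.2]
  have h1 := hR.B_inv (RS.WJ_le _ hw) (R.α l) (R.α l)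
  have h2 := hR.pr_B (R.α i) j
  have h3 := hR.pr_B (R.α j) i
  have h4 := hR.B_pos (hR.sign _ (hR.simple i)).1
  rw [pr_al, hij] at h2
  rw [pr_al, hji, hR.B_comm (R.α j)] at h3
  rw [← e, B_comb hR] at h1
  have h5 : R.B (R.α l) (R.α l) = R.B (R.α i) (R.α i) := by
    rcases hl with rfl | rfl
    · rfl
    · omega
  have h6 : (m - n) * (m - n) + m * n = 1 := mul_right_cancel₀ h4.ne' (by
    linear_combination h1 + h5 + n * n * h2 + (m * n - n * n) * h3)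
  have h7 := mul_self_nonneg (m - n)
  constructor <;> nlinarith

/-- the braid identity for positive root elements -/
theorem braid [IsAlgClosed k] (hR : R.Ok) (hΓ : Γ.Ok) (hij : R.A i j = -1) (hji : R.A j i = -1)
    {t1 t2 t3 u1 s u3 : k} (h1 : t1 ≠ 0) (hs : s ≠ 0) (e1 : t1 + t3 = s) (e2 : u1 + u3 = t2)
    (e3 : s * u3 = t1 * t2) :
    Γ.x (R.α i) t1 * Γ.x (R.α j) t2 * Γ.x (R.α i) t3 =
      Γ.x (R.α j) u1 * Γ.x (R.α i) s * Γ.x (R.α j) u3 := by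
  have hi := hR.simple i
  have hj := hR.simple j
  have hz : Γ.x (R.α i) t1 * Γ.x (R.α j) t2 * (Γ.x (R.α i) t1)⁻¹ * (Γ.x (R.α j) t2)⁻¹ ∈
      Γ.X {R.α i + R.α j} := by
    refine RG.X_mono ?_ (hΓ.comm _ hi _ hj (RS.α_nonneg i) (RS.α_nonneg j) t1 t2)
    rintro _ ⟨m, n, hm, hn, rfl⟩ h
    have := root_A2 hR hij hji (m := m) (n := n) (by omega) (by omega) (by
      rwa [natCast_zsmul, natCast_zsmul])
    rw [show m = 1 by omega, show n = 1 by omega, one_smul, one_smul]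
    rfl
  have c1 : Γ.X {R.α i + R.α j} ≤ centralizer {Γ.x (R.α j) u1} := RG.X_le (by
    rintro _ rfl h v
    have h2 := hΓ.comm _ hj _ h (RS.α_nonneg j) (add_nonneg (RS.α_nonneg i) (RS.α_nonneg j)) u1 v
    have h3 := RG.X_le (K := ⊥) (by
      rintro _ ⟨m, n, hm, hn, rfl⟩ h4
      have := root_A2 hR hij hji (m := n) (n := m + n) (by omega) (by omega) (by
        convert h4 using 1
        module)
      omega) h2
    rw [mem_centralizer_singleton_iff, eq_comm, ← mul_inv_eq_one, mul_inv_rev, ← mul_assoc]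
    rw [mem_bot] at h3
    calc _ = Γ.x (R.α j) u1 * Γ.x (R.α i + R.α j) v * (Γ.x (R.α j) u1)⁻¹ *
        (Γ.x (R.α i + R.α j) v)⁻¹ := by group
      _ = 1 := h3)
  obtain ⟨l, hl⟩ := IsAlgClosed.exists_pow_nat_eq (s / t1) (n := 3) (by omega)
  have hl0 : l ≠ 0 := fun c => div_ne_zero hs h1 (by rw [← hl, c, zero_pow (by omega)])
  lift l to kˣ using hl0.isUnit
  have hT : Γ.h i l * Γ.h j l⁻¹ ∈ Γ.T := mul_mem (RG.h_mem _ _) (RG.h_mem _ _)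
  have x1 : hΓ.chi (R.α i) (Γ.h i l * Γ.h j l⁻¹) = l ^ 3 := by
    rw [hΓ.chi_mul hR _ (RG.h_mem _ _) (RG.h_mem _ _), hΓ.chi_h hR, hΓ.chi_h hR, pr_al, pr_al,
      hR.diag, hij]
    group
  have x2 : hΓ.chi (R.α j) (Γ.h i l * Γ.h j l⁻¹) = (l ^ 3)⁻¹ := by
    rw [hΓ.chi_mul hR _ (RG.h_mem _ _) (RG.h_mem _ _), hΓ.chi_h hR, hΓ.chi_h hR, pr_al, pr_al,
      hR.diag, hji]
    group
  generalize Γ.h i l * Γ.h j l⁻¹ = τ at hT x1 x2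
  have c2 : Γ.X {R.α i + R.α j} ≤ centralizer {τ} := RG.X_le (by
    rintro _ rfl h v
    rw [mem_centralizer_singleton_iff, eq_comm, ← mul_inv_eq_iff_eq_mul, hΓ.tx hT h, hΓ.chi_add,
      x1, x2, mul_inv_cancel, Units.val_one, one_mul])
  have y1 := hΓ.tx hT hi t1
  have y2 := hΓ.tx hT hj t2
  rw [x1, Units.val_pow_eq_pow_val, hl, div_mul_cancel₀ _ h1] at y1
  rw [x2, Units.val_inv_eq_inv_val, Units.val_pow_eq_pow_val, hl,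
    show (s / t1)⁻¹ * t2 = u3 by field_simp; exact (e3.trans (by ring)).symm] at y2
  have d1 := mem_centralizer_singleton_iff.1 (c1 hz)
  have d2 := mem_centralizer_singleton_iff.1 (c2 hz)
  have d3 : Γ.x (R.α i) s * Γ.x (R.α j) u3 = Γ.x (R.α i) t1 * Γ.x (R.α j) t2 *
      (Γ.x (R.α i) t1)⁻¹ * (Γ.x (R.α j) t2)⁻¹ * (Γ.x (R.α j) u3 * Γ.x (R.α i) s) := by
    rw [← eq_mul_inv_iff_mul_eq] at d2
    rw [d2, ← y1, ← y2]
    group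
  rw [mul_assoc (Γ.x (R.α j) u1), d3, ← mul_assoc, ← d1, ← e1, ← e2, hΓ.add _ hi, hΓ.add _ hj]
  group

theorem y_eq (hR : R.Ok) (hΓ : Γ.Ok) (i : Fin R.r) (b : kˣ) : Γ.x (-R.α i) b =
    Γ.x (R.α i) (b⁻¹ : kˣ) * (Γ.h i (-b⁻¹) * Γ.n i) * Γ.x (R.α i) (b⁻¹ : kˣ) := by
  rw [← hΓ.sl, Units.val_neg, hΓ.x_neg (hR.simple i), inv_neg, inv_inv, Units.val_neg, neg_neg]
  group

/-- the big cell of `A₂` -/
theorem cell (hR : R.Ok) (hΓ : Γ.Ok) (hij : R.A i j = -1) (hji : R.A j i = -1) (b1 b2 b3 : kˣ) :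
    ∃ u ∈ Γ.U, ∃ u' ∈ Γ.U, Γ.x (-R.α i) b1 * Γ.x (-R.α j) b2 * Γ.x (-R.α i) b3 =
      u * (Γ.h i (b1 * b2)⁻¹ * Γ.h j (b2 * b3)⁻¹ * (Γ.n i * Γ.n j * Γ.n i)) * u' := by
  have hne : i ≠ j := fun c => by
    rw [c, hR.diag] at hij
    omega
  have r : ∀ l (c : kˣ), Γ.Rep (Γ.h l c * Γ.n l) (R.sE l) := fun l c =>
    one_mul (R.sE l) ▸ (RG.rep_T (RG.h_mem l c)).mul (RG.rep_n l)
  have xu : ∀ l (c : k), Γ.x (R.α l) c ∈ Γ.U := fun l c =>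
    RG.x_mem (hR.simple l) (RS.α_nonneg l) c
  have e1 : ∀ c : kˣ, Γ.n i * Γ.h j c * (Γ.n i)⁻¹ = Γ.h i c * Γ.h j c := fun c => by
    rw [hΓ.nh, hij, neg_neg, zpow_one, (hΓ.hh j i c c).eq]
  have e2 : ∀ c : kˣ, Γ.n i * (Γ.n j * Γ.h i c * (Γ.n j)⁻¹) * (Γ.n i)⁻¹ = Γ.h j c := fun c => by
    rw [hΓ.nh, hji, neg_neg, zpow_one]
    calc _ = Γ.n i * Γ.h i c * (Γ.n i)⁻¹ * (Γ.n i * Γ.h j c * (Γ.n i)⁻¹) := by group
      _ = _ := by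
        rw [e1, hΓ.nh, hR.diag, ← mul_assoc, ← map_mul, ← map_mul,
          show c * c ^ (-2 : ℤ) * c = 1 by group, map_one, one_mul]
  obtain ⟨A, hA, B, hB, f1⟩ := hΓ.cell_mul hR (J := Set.univ) (r i (-b1⁻¹)) (r j (-b2⁻¹)) (by
      rw [hR.sE_inv, hR.Inv_sE, hR.Inv_sE, Set.disjoint_singleton]
      exact RS.α_inj.ne hne) (RS.sE_mem_W i) (RS.sE_mem_W j)
    (u := Γ.x (R.α i) (b1⁻¹ : kˣ) * Γ.x (R.α j) (b2⁻¹ : kˣ))
    (RG.UJ_univ (Γ := Γ) ▸ mul_mem (xu _ _) (xu _ _))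
  obtain ⟨A', hA', B', hB', f2⟩ := hΓ.cell_mul hR (J := Set.univ)
    ((r i (-b1⁻¹)).mul (r j (-b2⁻¹))) (r i (-b3⁻¹)) (by
      rw [hR.sE_inv, hR.Inv_sE, Set.disjoint_singleton_right]
      rintro ⟨-, -, h⟩
      have h1 : (R.sE i * R.sE j) (R.α i) = R.α j := by
        rw [LinearEquiv.mul_apply, hR.sE_apply j, RS.s, pr_al, hij, map_sub, map_smul, hR.sE_α,
          hR.sE_apply, RS.s, pr_al, hji]
        module
      exact hR.not_both (hR.simple j) (RS.α_nonneg j) (h1 ▸ h))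
    (mul_mem (RS.sE_mem_W i) (RS.sE_mem_W j)) (RS.sE_mem_W i)
    (u := B * (Γ.x (R.α j) (b2⁻¹ : kˣ) * Γ.x (R.α i) (b3⁻¹ : kˣ)))
    (mul_mem hB (RG.UJ_univ (Γ := Γ) ▸ mul_mem (xu _ _) (xu _ _)))
  rw [RG.UJ_univ] at hA hA' hB'
  refine ⟨Γ.x (R.α i) (b1⁻¹ : kˣ) * A * A', mul_mem (mul_mem (xu _ _) hA) hA',
    B' * Γ.x (R.α i) (b3⁻¹ : kˣ), mul_mem hB' (xu _ _), ?_⟩
  have f3 : Γ.h i (b1 * b2)⁻¹ * Γ.h j (b2 * b3)⁻¹ * (Γ.n i * Γ.n j * Γ.n i) =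
      Γ.h i (-b1⁻¹) * Γ.n i * (Γ.h j (-b2⁻¹) * Γ.n j) * (Γ.h i (-b3⁻¹) * Γ.n i) := by
    rw [mul_inv, mul_inv, ← neg_mul_neg b1⁻¹, ← neg_mul_neg b2⁻¹ b3⁻¹, map_mul, map_mul,
      ← e2 (-b3⁻¹), mul_assoc (Γ.h i (-b1⁻¹)) (Γ.h i _), ← mul_assoc (Γ.h i (-b2⁻¹)), ← e1]
    group
  rw [f3, y_eq hR hΓ i b1, y_eq hR hΓ j, y_eq hR hΓ i b3]
  rw [← mul_inv_eq_iff_eq_mul, ← inv_mul_eq_iff_eq_mul] at f1 f2
  rw [← f2, ← f1]
  group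

end Vale.Agent.P183CH4
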