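import Vale.Agent.P183CH3.Sg
import Mathlib.LinearAlgebra.Matrix.Adjugate
import Mathlib.Data.ZMod.Basic

/-!
Sublattices of the root lattice that contain the image of `sg - 1` with bounded index.
-/

namespace Vale.Agent.P183CH4

open Matrix Finset Vale.Agent.P183CH Vale.Agent.P183CH3

variable {R : RS}

/-- The `l¹` norm. -/
def nm (v : R.Q) : ℤ := ∑ i, |v i|

theorem nm_nonneg (v : R.Q) : 0 ≤ nm v := sum_nonneg fun _ _ => abs_nonneg _

theorem one_le_nm {v : R.Q} (h : v ≠ 0) : 1 ≤ nm v := by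
  obtain ⟨i, hi⟩ := Function.ne_iff.1 h
  exact (Int.one_le_abs hi).trans (single_le_sum (f := fun i => |v i|) (fun _ _ => abs_nonneg _)
    (mem_univ i))

theorem nm_add_le (v w : R.Q) : nm (v + w) ≤ nm v + nm w := by
  rw [nm, nm, nm, ← sum_add_distrib]
  exact sum_le_sum fun i _ => abs_add_le _ _

theorem nm_sub_le (v w : R.Q) : nm (v - w) ≤ nm v + nm w := by
  rw [nm, nm, nm, ← sum_add_distrib]
  exact sum_le_sum fun i _ => abs_sub _ _

theorem nm_smul (c : ℤ) (v : R.Q) : nm (c • v) = |c| * nm v := by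
  simp [nm, mul_sum, abs_mul]

theorem nm_sum_le {ι : Type} (s : Finset ι) (v : ι → R.Q) :
    nm (∑ j ∈ s, v j) ≤ ∑ j ∈ s, nm (v j) := by
  simp only [nm, Finset.sum_apply]
  rw [sum_comm]
  exact sum_le_sum fun i _ => abs_sum_le_sum_abs _ _

theorem exists_nm_le (Λ : Finset R.Q) : ∃ c : ℕ, ∀ γ ∈ Λ, nm γ ≤ c :=
  ⟨(∑ γ ∈ Λ, nm γ).toNat, fun _ hγ =>
    (single_le_sum (f := nm) (fun _ _ => nm_nonneg _) hγ).trans (Int.self_le_toNat _)⟩

/-- The height. -/
def hp (v : R.Q) : ℤ := ∑ i, v i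

theorem hp_comb (x y z : ℤ) (u v w : R.Q) :
    hp (x • u + y • v + z • w) = x * hp u + y * hp v + z * hp w := by
  simp [hp, sum_add_distrib, mul_sum]

theorem hp_pos {v : R.Q} (h0 : v ≠ 0) (h : 0 ≤ v) : 0 < hp v := by
  have h1 : hp v = nm v := sum_congr rfl fun i _ => (abs_of_nonneg (h i)).symm
  exact h1 ▸ one_le_nm h0

theorem hp_neg {v : R.Q} (h0 : v ≠ 0) (h : v ≤ 0) : hp v < 0 := by
  have h1 : nm v = -hp v := by
    rw [hp, ← sum_neg_distrib]
    exact sum_congr rfl fun i _ => abs_of_nonpos (h i)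
  have := one_le_nm h0
  omega

theorem ind2 (hR : R.Ok) {u v : R.Q} (hu : u ∈ R.Φ) (hv : v ∈ R.Φ) (hne : u ≠ v)
    (hs : 0 < hp u * hp v) {x y : ℤ} (h : x • u + y • v = 0) : x = 0 ∧ y = 0 := by
  have h1 := hp_comb x y 0 u v u
  rw [zero_smul, add_zero, h, show hp (0 : R.Q) = 0 by simp [hp]] at h1
  have h2 : hp u ≠ 0 := left_ne_zero_of_mul hs.ne'
  have h3 : hp v ≠ 0 := right_ne_zero_of_mul hs.ne'
  have h4 : 0 < hp v * hp v := mul_self_pos.2 h3
  have h5 : x * (hp u * hp v) + y * (hp v * hp v) = 0 := by linear_combination (-hp v) * h1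
  rcases lt_trichotomy x 0 with c | c | c
  · refine absurd (root_eq hR u hu v hv (-x) y (by omega) (by nlinarith) ?_) hne
    linear_combination (norm := module) -h
  · exact ⟨c, by simpa [c, h3] using h5⟩
  · refine absurd (root_eq hR u hu v hv x (-y) c (by nlinarith) ?_) hne
    linear_combination (norm := module) h

variable {p : ℕ} {π : Equiv.Perm (Fin R.r)} {a : Fin R.r → ℕ} {e f : ℕ}

/-- The norm map. -/
def Sg (R : RS) (p : ℕ) (π : Equiv.Perm (Fin R.r)) (a : Fin R.r → ℕ) (l : ℕ) (v : R.Q) : R.Q :=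
  ∑ j ∈ range l, (sg R p π a)^[j] v

theorem sg_Sg (l : ℕ) (v : R.Q) :
    sg R p π a (Sg R p π a l v) - Sg R p π a l v = (sg R p π a)^[l] v - v := by
  rw [Sg, map_sum, ← sum_sub_distrib]
  simpa only [Function.iterate_succ_apply', Function.iterate_zero, id] using
    sum_range_sub (fun j => (sg R p π a)^[j] v) l

section

variable (h : Tw R p π a e f)
include h

theorem one_lt_P : (1 : ℤ) < (p : ℤ) ^ f :=
  one_lt_pow₀ (by exact_mod_cast h.one_lt) h.fpos.ne'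

theorem le_nm {q : ℤ} (hq : ∀ i, q ≤ (p : ℤ) ^ a i) (v : R.Q) :
    q * nm v ≤ nm (sg R p π a v) := by
  rw [nm, nm, ← Equiv.sum_comp π fun i => |v i|, mul_sum]
  refine sum_le_sum fun i _ => ?_
  rw [sg_apply, abs_mul, abs_of_pos (h.ppos _)]
  exact mul_le_mul_of_nonneg_right (hq i) (abs_nonneg _)

theorem nm_le {q : ℤ} (hq : ∀ i, (p : ℤ) ^ a i ≤ q) (v : R.Q) :
    nm (sg R p π a v) ≤ q * nm v := by
  rw [nm, nm, ← Equiv.sum_comp π fun i => |v i|, mul_sum]
  refine sum_le_sum fun i _ => ?_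
  rw [sg_apply, abs_mul, abs_of_pos (h.ppos _)]
  exact mul_le_mul_of_nonneg_right (hq i) (abs_nonneg _)

/-- The lattice lemma. -/
theorem lk {v : R.Q} {j : ℤ} (hv : ∀ i, (p : ℤ) ^ f - 1 ∣ j * R.pr (Sg R p π a e v) i) :
    ∃ μ, (j * R.A.det) • v = sg R p π a μ - μ := by
  choose w hw using hv
  have h1 : (j • Sg R p π a e v) ᵥ* R.A = ((p : ℤ) ^ f - 1) • w := funext fun i => by
    rw [Pi.smul_apply, smul_eq_mul, ← hw, ← pr_smul, RS.pr]
  have h2 := congrArg (· ᵥ* R.A.adjugate) h1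
  simp only [vecMul_vecMul, mul_adjugate, vecMul_smul, vecMul_one, smul_vecMul] at h2
  have h3 := sg_Sg (p := p) (π := π) (a := a) e v
  rw [h.pow] at h3
  have h4 := congrArg (sg R p π a) h2
  simp only [map_smul] at h4
  refine ⟨w ᵥ* R.A.adjugate, smul_right_injective _ (r := (p : ℤ) ^ f - 1)
    (by have := one_lt_P h; omega) ?_⟩
  linear_combination (norm := module) h4 - h2 - (j * R.A.det) • h3

theorem same_sign {γ : R.Q} (hγ : γ ∈ R.Φ) (i j : ℕ) :
    0 < hp ((rho R p π a)^[i] γ) * hp ((rho R p π a)^[j] γ) := by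
  have h0 := fun l => (h.ok.sign _ (h.iter_mem hγ l)).1
  by_cases c : 0 ≤ γ
  · exact mul_pos (hp_pos (h0 i) ((h.iter_nonneg hγ i).2 c))
      (hp_pos (h0 j) ((h.iter_nonneg hγ j).2 c))
  · have h1 := fun l => (h.ok.sign _ (h.iter_mem hγ l)).2.resolve_left
      fun d => c ((h.iter_nonneg hγ l).1 d)
    exact mul_pos_of_neg_of_neg (hp_neg (h0 i) (h1 i)) (hp_neg (h0 j) (h1 j))

/-- The roots in an orbit are linearly independent. -/
theorem indep {γ : R.Q} (hγ : γ ∈ R.Φ) {l : ℕ} (hl : len R p π a γ = l) (x : Fin l → ℤ)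
    (hx : ∑ j, x j • (rho R p π a)^[j] γ = 0) : x = 0 := by
  have h1 := h.len_pos hγ
  have h3 := h.len_le hγ
  have hs := same_sign h hγ
  have hm := h.iter_mem hγ
  have hi := Tw.iter_len (p := p) (π := π) (a := a) γ
  have hn : ∀ {j}, 0 < j → j < l → γ ≠ (rho R p π a)^[j] γ :=
    fun h0 hj => (Tw.iter_ne h0 (hl ▸ hj)).symm
  rw [hl] at h1 h3 hi
  clear hl
  interval_cases l
  · funext j
    rw [Fin.sum_univ_one] at hx
    rw [Subsingleton.elim j 0]
    exact (smul_eq_zero.1 hx).resolve_right (h.ok.sign γ hγ).1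
  · rw [Fin.sum_univ_two] at hx
    have := ind2 h.ok hγ (hm 1) (hn one_pos one_lt_two) (hs 0 1) hx
    funext j
    fin_cases j
    exacts [this.1, this.2]
  · rw [Fin.sum_univ_three] at hx
    set ρ := rho R p π a with hρ
    change x 0 • γ + x 1 • ρ γ + x 2 • ρ (ρ γ) = 0 at hx
    change ρ (ρ (ρ γ)) = γ at hi
    have e0 := h.sg_rho hγ
    have e1 := h.sg_rho (hm 1)
    have e2 := h.sg_rho (hm 2)
    change sg R p π a (ρ (ρ γ)) = (p : ℤ) ^ lv R p π a (ρ γ) • ρ γ at e1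
    change sg R p π a (ρ (ρ (ρ γ))) = (p : ℤ) ^ lv R p π a (ρ (ρ γ)) • ρ (ρ γ) at e2
    rw [hi] at e2
    have hy := congrArg (sg R p π a) hx
    rw [map_add, map_add, map_smul, map_smul, map_smul, e0, e1, e2, map_zero] at hy
    have p0 := h.ppos (lv R p π a γ)
    have p1 := h.ppos (lv R p π a (ρ γ))
    have p2 := h.ppos (lv R p π a (ρ (ρ γ)))
    generalize (p : ℤ) ^ lv R p π a γ = q0 at hy p0
    generalize (p : ℤ) ^ lv R p π a (ρ γ) = q1 at hy p1
    generalize (p : ℤ) ^ lv R p π a (ρ (ρ γ)) = q2 at hy p2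
    have a1 := ind2 h.ok hγ (hm 1) (hn one_pos (by omega)) (hs 0 1)
      (x := x 0 * x 0 * q2 - x 2 * x 1 * q0) (y := x 1 * x 0 * q2 - x 2 * x 2 * q1) (by
        change _ • γ + _ • ρ γ = 0
        linear_combination (norm := module) (x 0 * q2) • hx - x 2 • hy)
    have a2 := ind2 h.ok hγ (hm 2) (hn two_pos (by omega)) (hs 0 2)
      (x := x 1 * x 1 * q0 - x 0 * x 2 * q1) (y := x 1 * x 0 * q2 - x 2 * x 2 * q1) (by
        change _ • γ + _ • ρ (ρ γ) = 0
        linear_combination (norm := module) x 1 • hy - (x 2 * q1) • hx)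
    have b0 : 0 ≤ x 2 * x 1 := by nlinarith [a1.1, mul_self_nonneg (x 0)]
    have b1 : 0 ≤ x 1 * x 0 := by nlinarith [a1.2, mul_self_nonneg (x 2)]
    have b2 : 0 ≤ x 0 * x 2 := by nlinarith [a2.1, mul_self_nonneg (x 1)]
    have hh := hp_comb (x 0) (x 1) (x 2) γ (ρ γ) (ρ (ρ γ))
    rw [hx, show hp (0 : R.Q) = 0 by simp [hp]] at hh
    have s00 : 0 < hp γ * hp γ := hs 0 0
    have s01 : 0 < hp γ * hp (ρ γ) := hs 0 1
    have s02 : 0 < hp γ * hp (ρ (ρ γ)) := hs 0 2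
    have c0 : x 0 = 0 := by
      have h5 : x 0 * x 0 * (hp γ * hp γ) + x 1 * x 0 * (hp γ * hp (ρ γ)) +
        x 0 * x 2 * (hp γ * hp (ρ (ρ γ))) = 0 := by linear_combination (-(x 0 * hp γ)) * hh
      have h6 := mul_nonneg b1 s01.le
      have h7 := mul_nonneg b2 s02.le
      have h8 := mul_nonneg (mul_self_nonneg (x 0)) s00.le
      exact mul_self_eq_zero.1 ((mul_eq_zero.1 (by omega)).resolve_right s00.ne')
    have c1 : x 1 = 0 := by simpa [c0, p0.ne'] using a2.1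
    have c2 : x 2 = 0 := by simpa [c0, p1.ne'] using a1.2
    funext j
    fin_cases j
    exacts [c0, c1, c2]

end

theorem exists_big (hR : R.Ok) (B : ℕ) : ∃ q₀ : ℕ, ∀ p π a e f,
    Tw R p π a e f → q₀ < p ^ f → ∀ i, B ≤ p ^ a i := by
  obtain ⟨C, h1⟩ := exists_cmp hR
  refine ⟨(C * B + 1) ^ 3, fun p π a e f h hq i => by_contra fun c => ?_⟩
  have h2 : ∀ j, (p : ℤ) ^ a j ≤ (C * B + 1 : ℕ) := fun j => by
    exact_mod_cast (h1 _ _ _ _ _ h j i).trans
      ((Nat.mul_le_mul_left _ (not_le.1 c).le).trans (Nat.le_succ _))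
  have h3 : ∀ n, nm ((sg R p π a)^[n] (R.α i)) ≤ (C * B + 1 : ℕ) ^ n * nm (R.α i) := fun n => by
    induction n with
    | zero => simp
    | succ n ih =>
      rw [Function.iterate_succ_apply', pow_succ', mul_assoc]
      exact (nm_le h h2 _).trans (mul_le_mul_of_nonneg_left ih (Int.natCast_nonneg _))
  have h4 := h3 e
  rw [h.pow, nm_smul, abs_of_pos (h.ppos _)] at h4
  have h5 : p ^ f ≤ (C * B + 1) ^ e := by
    exact_mod_cast le_of_mul_le_mul_right h4
      (one_pos.trans_le (one_le_nm (hR.sign _ (hR.simple i)).1))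
  exact absurd (h5.trans (Nat.pow_le_pow_right (Nat.succ_pos _) h.ele)) (not_le.2 hq)

/-- A subgroup that contains the image of `sg - 1` with bounded index. -/
structure KL (R : RS) (p : ℕ) (π : Equiv.Perm (Fin R.r)) (a : Fin R.r → ℕ)
    (K : AddSubgroup R.Q) : Prop where
  sub : ∀ μ, sg R p π a μ - μ ∈ K
  lk : ∀ v ∈ K, ∃ μ, (2 * R.A.det) • v = sg R p π a μ - μ

namespace KL

variable {K : AddSubgroup R.Q} (hK : KL R p π a K) (h : Tw R p π a e f)
include hK h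

theorem small {v : R.Q} (hv : v ∈ K) (hs : ∀ i, 2 * |R.A.det| * nm v + 2 ≤ (p : ℤ) ^ a i) :
    v = 0 := by
  obtain ⟨μ, hμ⟩ := hK.lk v hv
  by_cases c : μ = 0
  · rw [c, map_zero, sub_zero] at hμ
    exact (smul_eq_zero.1 hμ).resolve_left (mul_ne_zero two_ne_zero h.ok.det)
  have h1 := le_nm h hs μ
  have h2 := nm_add_le ((2 * R.A.det) • v) μ
  rw [nm_smul, abs_mul, abs_two, hμ, sub_add_cancel] at h2
  have h3 := one_le_nm c
  have h4 : 0 ≤ 2 * |R.A.det| * nm v :=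
    mul_nonneg (mul_nonneg zero_le_two (abs_nonneg _)) (nm_nonneg _)
  nlinarith

theorem rho_mem {γ : R.Q} (hγ : γ ∈ R.Φ) :
    (p : ℤ) ^ lv R p π a γ • γ - rho R p π a γ ∈ K := h.sg_rho hγ ▸ hK.sub _

theorem iter_mem {γ : R.Q} (hγ : γ ∈ R.Φ) (l : ℕ) :
    (p : ℤ) ^ lvs R p π a γ l • γ - (rho R p π a)^[l] γ ∈ K := by
  induction l with
  | zero => simp [lvs]
  | succ l ih =>
    have := K.add_mem (K.zsmul_mem ih ((p : ℤ) ^ lv R p π a ((rho R p π a)^[l] γ)))
      (hK.rho_mem h (h.iter_mem hγ l))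
    rw [Tw.lvs_succ, Function.iterate_succ_apply', pow_add]
    convert this using 1
    module

end KL

/-- Roots whose characters are conjugate lie in one orbit. -/
theorem exists_orbit (hR : R.Ok) : ∃ q₀ : ℕ, ∀ p π a e f K, Tw R p π a e f → KL R p π a K →
    q₀ < p ^ f → ∀ γ ∈ R.Φ, ∀ (l : ℕ), ∀ δ ∈ R.Φ, (p : ℤ) ^ l • δ - γ ∈ K →
      ∃ j, γ = (rho R p π a)^[j] δ := by
  obtain ⟨C, h1⟩ := exists_cmp hR
  obtain ⟨c, hc⟩ := exists_nm_le R.Φ
  obtain ⟨M, hM⟩ : ∃ M : ℕ, (M : ℤ) = 4 * |R.A.det| * c + 2 :=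
    ⟨_, Int.toNat_of_nonneg (by positivity)⟩
  obtain ⟨q₀, h2⟩ := exists_big hR (M * M * C + 2)
  refine ⟨q₀, fun p π a e f K h hK hq γ hγ => ?_⟩
  have hb := h2 p π a e f h hq
  have key : ∀ u ∈ R.Φ, ∀ v ∈ R.Φ, ∀ (i : ℕ) j, 2 * i ≤ a j → (p : ℤ) ^ i • u - v ∈ K → u = v := by
    intro u hu v hv i j hi hm
    have h3 := hK.small h hm fun n => by
      have h4 := nm_sub_le ((p : ℤ) ^ i • u) v
      rw [nm_smul, abs_of_pos (h.ppos _)] at h4
      have h5 : (1 : ℤ) ≤ (p : ℤ) ^ i := h.ppos i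
      have h6 : nm ((p : ℤ) ^ i • u - v) ≤ 2 * c * (p : ℤ) ^ i := by
        nlinarith [hc u hu, hc v hv, Int.natCast_nonneg c]
      have h7 : M * p ^ i ≤ p ^ a n := by
        refine Nat.mul_self_le_mul_self_iff.1 ?_
        have h8 : p ^ i * p ^ i ≤ C * p ^ a n := by
          rw [← pow_add, ← two_mul]
          exact (Nat.pow_le_pow_right (by have := h.one_lt; omega) hi).trans (h1 _ _ _ _ _ h j n)
        calc M * p ^ i * (M * p ^ i) = M * M * (p ^ i * p ^ i) := by ring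
          _ ≤ M * M * (C * p ^ a n) := Nat.mul_le_mul_left _ h8
          _ = M * M * C * p ^ a n := by ring
          _ ≤ _ := Nat.mul_le_mul_right _ ((Nat.le_add_right _ _).trans (hb n))
      have h9 : (M : ℤ) * (p : ℤ) ^ i ≤ (p : ℤ) ^ a n := by exact_mod_cast h7
      rw [hM] at h9
      nlinarith [abs_nonneg R.A.det]
    exact root_eq hR u hu v hv _ 1 (h.ppos i) one_pos (by rw [one_smul, ← sub_eq_zero, h3])
  intro l
  induction l using Nat.strong_induction_on with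
  | _ l ih =>
  intro δ hδ hm
  obtain ⟨j, hj⟩ := h.exists_lv δ hδ
  have h0 : 0 < a j := Nat.pos_of_ne_zero fun d => by
    have := hb j
    rw [d, pow_zero] at this
    omega
  have hr := hK.rho_mem h hδ
  rw [hj] at hr
  rcases le_or_gt (a j) l with d | d
  · obtain ⟨n, rfl⟩ := Nat.exists_eq_add_of_le d
    obtain ⟨i, hi⟩ := ih n (by omega) _ (h.rho_mem hδ) (by
      convert K.sub_mem hm (K.zsmul_mem hr ((p : ℤ) ^ n)) using 1
      rw [pow_add]
      module)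
    exact ⟨i + 1, hi⟩
  rcases le_or_gt (2 * l) (a j) with d' | d'
  · exact ⟨0, (key δ hδ γ hγ l j d' hm).symm⟩
  obtain ⟨n, hn⟩ := Nat.exists_eq_add_of_le d.le
  refine ⟨1, key γ hγ (rho R p π a δ) (h.rho_mem hδ) n j (by omega) ?_⟩
  convert K.sub_mem hr (K.zsmul_mem hm ((p : ℤ) ^ n)) using 1
  rw [hn, pow_add]
  module

/-- The order of a root modulo `K` is large. -/
theorem exists_order (hR : R.Ok) : ∃ C q₀ : ℕ, ∀ p π a e f K, Tw R p π a e f → KL R p π a K →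
    q₀ < p ^ f → ∀ γ ∈ R.Φ, ∀ N : ℕ, 0 < N → (N : ℤ) • γ ∈ K → p ^ lQ R p π a γ ≤ C * N := by
  obtain ⟨C, h1⟩ := exists_cmp hR
  obtain ⟨c, hc⟩ := exists_nm_le R.Φ
  obtain ⟨M, hM⟩ : ∃ M : ℕ, (M : ℤ) = 6 * |R.A.det| * c + 2 :=
    ⟨_, Int.toNat_of_nonneg (by positivity)⟩
  have hM0 : 0 < M := by
    have : (0 : ℤ) < M := by rw [hM]; positivity
    exact_mod_cast this
  obtain ⟨q₀, h2⟩ := exists_big hR M
  refine ⟨(C * M + 1) ^ 3, q₀, fun p π a e f K h hK hq γ hγ N hN hm => ?_⟩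
  obtain ⟨n, -, hn⟩ := exists_min_image univ (fun i => p ^ a i) ⟨⟨0, hR.pos⟩, mem_univ _⟩
  obtain ⟨B, hB⟩ : ∃ B, B = p ^ a n / M := ⟨_, rfl⟩
  have hB1 : M * B ≤ p ^ a n := hB ▸ Nat.mul_div_le _ _
  have hB2 : p ^ a n < M * (B + 1) := hB ▸ Nat.lt_mul_div_succ _ hM0
  have hB0 : 0 < B := hB ▸ Nat.div_pos (h2 p π a e f h hq n) hM0
  have h3 : (B + 1) ^ len R p π a γ ≤ N := by
    have : NeZero N := ⟨hN.ne'⟩
    by_contra d
    obtain ⟨x, y, hne, hxy⟩ := Fintype.exists_ne_map_eq_of_card_lt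
      (fun x : Fin (len R p π a γ) → Fin (B + 1) =>
        ((∑ j, (x j : ℤ) * (p : ℤ) ^ lvs R p π a γ j : ℤ) : ZMod N)) (by simpa using d)
    obtain ⟨w, hw⟩ := (ZMod.intCast_eq_intCast_iff_dvd_sub _ _ _).1 hxy
    have h4 : ∑ j : Fin (len R p π a γ), ((y j : ℤ) - x j) • (rho R p π a)^[j] γ ∈ K := by
      have h5 := K.sum_mem (t := univ) fun (j : Fin (len R p π a γ)) _ =>
        K.zsmul_mem (hK.iter_mem h hγ j) ((y j : ℤ) - x j)
      convert K.sub_mem (K.zsmul_mem hm w) h5 using 1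
      rw [smul_smul, mul_comm w, ← hw, ← sum_sub_distrib, sum_smul, ← sum_sub_distrib]
      exact sum_congr rfl fun j _ => by module
    have h6 := indep h hγ rfl _ (hK.small h h4 fun i => by
      have h7 : nm (∑ j : Fin (len R p π a γ), ((y j : ℤ) - x j) • (rho R p π a)^[j] γ) ≤
          3 * (B * c) := by
        refine (nm_sum_le _ _).trans ((sum_le_card_nsmul _ _ ((B : ℤ) * c) fun j _ => ?_).trans ?_)
        · rw [nm_smul]
          refine mul_le_mul ?_ (hc _ (h.iter_mem hγ j)) (nm_nonneg _) (Int.natCast_nonneg _)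
          have := (x j).2
          have := (y j).2
          rw [abs_le]
          omega
        · rw [card_univ, Fintype.card_fin, nsmul_eq_mul]
          exact mul_le_mul_of_nonneg_right (by exact_mod_cast h.len_le hγ) (by positivity)
      have h8 : (M : ℤ) * B ≤ (p : ℤ) ^ a i := by exact_mod_cast hB1.trans (hn i (mem_univ _))
      have h9 : (1 : ℤ) ≤ B := by exact_mod_cast hB0
      rw [hM] at h8
      nlinarith [abs_nonneg R.A.det])
    refine hne (funext fun j => Fin.ext ?_)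
    have := congrFun h6 j
    simp only [Pi.zero_apply] at this
    omega
  calc p ^ lQ R p π a γ = ∏ j ∈ range (len R p π a γ), p ^ lv R p π a ((rho R p π a)^[j] γ) := by
        rw [prod_pow_eq_pow_sum]; rfl
    _ ≤ ((C * M + 1) * (B + 1)) ^ (range (len R p π a γ)).card := prod_le_pow_card _ _ _ fun j _ => by
        obtain ⟨i, hi⟩ := h.exists_lv _ (h.iter_mem hγ j)
        rw [hi]
        refine (h1 _ _ _ _ _ h i n).trans ((Nat.mul_le_mul_left _ hB2.le).trans ?_)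
        rw [← mul_assoc]
        exact Nat.mul_le_mul_right _ (Nat.le_succ _)
    _ ≤ _ := by
        rw [card_range, mul_pow]
        exact Nat.mul_le_mul (Nat.pow_le_pow_right (Nat.succ_pos _) (h.len_le hγ)) h3

end Vale.Agent.P183CH4
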