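import Vale.Agent.P183CH3.Lay
import Vale.Agent.P183CH4.A2
import Vale.Agent.P183CH4.Lat
import Mathlib.RingTheory.RootsOfUnity.AlgebraicallyClosed

/-!
Squares of norms of coroot elements lie in the group generated by the fixed `p`-elements.
-/

namespace Vale.Agent.P183CH4

open Subgroup Vale.Agent.P183CH Vale.Agent.P183CH3

variable {R : RS} {k : Type} [Field k] {G : Type} [Group G] {Γ : RG R k G} {p : ℕ} {σ : G →* G}
  {π : Equiv.Perm (Fin R.r)} {a : Fin R.r → ℕ} {e f d : ℕ}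

theorem fix_of_mem {g : G} (hg : g ∈ fixP p σ) : σ g = g :=
  (closure_le (MonoidHom.eqLocus σ (MonoidHom.id _))).2 (fun _ h => h.1) hg

theorem conj_mem {τ g : G} (hτ : σ τ = τ) (hg : g ∈ fixP p σ) : τ * g * τ⁻¹ ∈ fixP p σ :=
  (closure_le ((fixP p σ).comap (MulAut.conj τ).toMonoidHom)).2 (by
    rintro g ⟨h1, m, h2⟩
    exact subset_closure ⟨by simp [hτ, h1], m, by simp [h2]⟩) hg

theorem pr_neg_of (hR : R.Ok) {w : R.Aut} (hw : w ∈ R.W) {i : Fin R.r}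
    (h : w (R.α i) = -R.α i) (μ : R.Q) : R.pr (w μ) i = -R.pr μ i := by
  have h1 := hR.pr_conj (mul_mem (RS.sE_mem_W i) hw) (i := i) (j := i) (by
    rw [LinearEquiv.mul_apply, h, map_neg, hR.sE_α, neg_neg]) μ
  rw [LinearEquiv.mul_apply, hR.sE_apply, RS.s, sub_eq_add_neg, ← neg_smul, pr_add, pr_smul, pr_al,
    hR.diag] at h1
  omega

variable [Fact p.Prime] [CharP k p] [IsAlgClosed k] (c : SC Γ p σ π a e f d)
include c

omit [IsAlgClosed k] in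
theorem U_mem {u : G} (hu : u ∈ Γ.U) (h : σ u = u) : u ∈ fixP p σ :=
  (c.hΓ.U_pow c.hR p).elim fun m hm => subset_closure ⟨h, m, hm u hu⟩

theorem cell_mem {g u m u' : G} (hg : g ∈ fixP p σ) (hu : u ∈ Γ.U) (hm : m ∈ Γ.N) (hu' : u' ∈ Γ.U)
    (h : g = u * m * u') : m ∈ fixP p σ := by
  obtain ⟨u1, hu1, n, w, hr, v, hv, h1⟩ := c.hΓ.bruhat c.hR g
  have hv' : v ∈ Γ.U := RG.X_mono (fun _ h _ => h.2.1) hv
  have h2 : n = m := c.hΓ.cell_eq c.hR hm hr.mem_N (mul_mem (inv_mem hu1) hu)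
    (mul_mem hu' (inv_mem hv')) (by
      calc n = u1⁻¹ * (u1 * n * v) * v⁻¹ := by group
        _ = _ := by rw [← h1, h]; group)
  have h3 : σ u1 * σ n * σ v = u1 * n * v := by rw [← map_mul, ← map_mul, ← h1, fix_of_mem hg]
  have h4 : σ n = n := c.hΓ.cell_eq c.hR hr.mem_N (c.sig_N hr.mem_N)
    (mul_mem (inv_mem (c.sig_U hu1)) hu1) (mul_mem hv' (inv_mem (c.sig_U hv'))) (by
      calc σ n = (σ u1)⁻¹ * (σ u1 * σ n * σ v) * (σ v)⁻¹ := by group
        _ = _ := by rw [h3]; group)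
  have h5 : σ v ∈ Γ.X (R.Inv w) := c.sig_X (S' := R.Inv w) (fun γ hγ h0 => by
    refine ⟨c.tw.rho_mem h0, (c.tw.rho_nonneg h0).2 hγ.2.1, c.tw.sg_nonpos.1 ?_⟩
    rw [c.rep_fix hr h4, c.tw.sg_rho h0, map_smul]
    exact smul_nonpos_of_nonneg_of_nonpos (c.tw.ppos _).le hγ.2.2) hv
  rw [h4] at h3
  obtain ⟨h6, -, h7⟩ := c.hΓ.bruhat_unique c.hR hr hr (c.sig_U hu1) hu1 h5 hv h3
  have h8 : m = u1⁻¹ * g * v⁻¹ := by rw [h1, h2]; group
  exact h8 ▸ mul_mem (mul_mem (inv_mem (U_mem c hu1 h6)) hg) (inv_mem (U_mem c hv' h7))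

theorem chi_nrm {z : G} (hz : z ∈ Γ.T) (l : ℕ) (γ : R.Q) :
    c.hΓ.chi γ (nrm σ z l) = c.hΓ.chi (Sg R p π a l γ) z := by
  have h0 := nrm_mem (σ := σ) (fun _ => c.sig_T) hz
  have h1 : ∀ l γ, c.hΓ.chi γ (σ^[l] z) = c.hΓ.chi ((sg R p π a)^[l] γ) z := fun l => by
    induction l with
    | zero => exact fun _ => rfl
    | succ l ih =>
      intro γ
      rw [Function.iterate_succ_apply', c.chi_sig _ (h0 l).1, ih, Function.iterate_succ_apply]
  induction l with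
  | zero => rw [nrm, Sg, Finset.sum_range_zero, c.hΓ.chi_one c.hR, c.hΓ.chi_zero]
  | succ l ih =>
    rw [nrm, c.hΓ.chi_mul c.hR _ (h0 l).2 (h0 l).1, ih, h1, Sg, Sg, Finset.sum_range_succ,
      c.hΓ.chi_add]

/-- the case `w α_i = - α_i` -/
theorem tb_one {n : G} {w : R.Aut} {i : Fin R.r} (hn : n ∈ fixP p σ) (hr : Γ.Rep n w)
    (hw : w * w = 1) (h : w (R.α i) = -R.α i) {u : kˣ} (hu : u ^ p ^ f = u) :
    ∃ t ∈ Γ.T ⊓ fixP p σ, ∀ γ, c.hΓ.chi γ t = u ^ (2 * R.pr (Sg R p π a e γ) i) := by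
  have hz := RG.h_mem (Γ := Γ) i u
  have hτ := (nrm_mem (σ := σ) (fun _ => c.sig_T) hz e).2
  have h1 : σ (nrm σ (Γ.h i u) e) = nrm σ (Γ.h i u) e := by
    rw [sig_nrm, c.iter_T hz, ← map_pow, hu, mul_assoc, c.hΓ.T_comm hτ hz, inv_mul_cancel_left]
  have h2 := fun γ => chi_nrm c hz e γ
  generalize nrm σ (Γ.h i u) e = τ at hτ h1 h2
  have h3 : n * τ⁻¹ * n⁻¹ ∈ Γ.T := c.hΓ.nm_N_T c.hR _ hr.mem_N _ (inv_mem hτ)
  refine ⟨τ * (n * τ⁻¹ * n⁻¹), mem_inf.2 ⟨mul_mem hτ h3, ?_⟩, fun γ => ?_⟩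
  · simpa only [mul_assoc] using mul_mem (conj_mem h1 hn) (inv_mem hn)
  have h4 := c.hΓ.chi_rep c.hR hr (w γ) (inv_mem hτ)
  rw [← LinearEquiv.mul_apply, hw, LinearEquiv.coe_one, id] at h4
  have h5 : Sg R p π a e (w γ) = w (Sg R p π a e γ) := by
    rw [Sg, Sg, map_sum]
    exact Finset.sum_congr rfl fun l _ =>
      ((Function.Commute.iterate_left (c.rep_fix hr (fix_of_mem hn)) l) γ)
  rw [c.hΓ.chi_mul c.hR _ hτ h3, h4, c.hΓ.chi_inv c.hR _ hτ, h2, h2, c.hΓ.chi_h c.hR,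
    c.hΓ.chi_h c.hR, h5, pr_neg_of c.hR hr.mem_W h, zpow_neg, inv_inv, ← zpow_add, two_mul]

/-- the unitary case -/
theorem dich {n : G} {w : R.Aut} {i j : Fin R.r} (hn : σ n = n) (hr : Γ.Rep n w)
    (hw : R.Lg {j | π.SameCycle i j} w) (hj : π.SameCycle i j) (hne : j ≠ i)
    (h : w (R.α i) = -R.α j) : w (R.α j) = -R.α i ∧ π i = j ∧ π j = i ∧ e = 2 ∧ a j = a i ∧
      f = a i + a i ∧ R.A i j = -1 ∧ R.A j i = -1 := by
  have hR := c.hR
  have h' : w (R.α j) = -R.α i := by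
    have := congrArg w h
    rw [← LinearEquiv.mul_apply, hR.Lg_mul_self hw, LinearEquiv.coe_one, id, map_neg] at this
    rw [this, neg_neg]
  have hτ : ∀ l m, w (R.α l) = -R.α m → w (R.α (π l)) = -R.α (π m) ∧ a m = a l := fun l m hl => by
    have h1 := c.tw.rho_eq (hR.neg_mem (hR.simple m)) (hR.map_mem hr.mem_W (hR.simple (π l)))
      (b := a l) (by rw [c.rep_fix hr hn, sg_al, map_smul, hl])
    rw [(c.tw.rho_neg (hR.simple m)).1, (c.tw.rho_neg (hR.simple m)).2, (c.tw.rho_al m).1,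
      (c.tw.rho_al m).2] at h1
    exact ⟨h1.1.symm, h1.2⟩
  have he := c.tw.pi_e i
  have he1 := c.tw.epos
  have he3 := c.tw.ele
  have hπ : π i = j ∧ π j = i := by
    obtain ⟨m, hm⟩ := hj.exists_nat_pow_eq
    rw [Equiv.Perm.coe_pow, ← Function.IsPeriodicPt.iterate_mod_apply he] at hm
    have h2 : m % e < 3 := (Nat.mod_lt _ he1).trans_le he3
    have h3 := Nat.mod_lt m he1
    generalize m % e = l at hm h2 h3
    interval_cases l
    · exact absurd hm.symm hne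
    · have h4 : π i = j := hm
      exact ⟨h4, RS.α_inj (neg_injective ((h4 ▸ (hτ i j h).1).symm.trans h'))⟩
    · obtain rfl : e = 3 := by omega
      have h4 : π j = i := hm ▸ he
      exact ⟨RS.α_inj (neg_injective ((h4 ▸ (hτ j i h').1).symm.trans h)), h4⟩
  have h2 : e = 2 := by
    interval_cases e
    · exact absurd (hπ.1.symm.trans he) hne
    · rfl
    · change π (π (π i)) = i at he
      rw [hπ.1, hπ.2, hπ.1] at he
      exact absurd he hne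
  have ha := (hτ i j h).2
  have hf : f = a i + a i := by
    have h3 := c.tw.pow (R.α i)
    have h4 := sg_al (p := p) (π := π) (a := a) i
    have h5 := sg_al (p := p) (π := π) (a := a) j
    rw [hπ.1] at h4
    rw [hπ.2] at h5
    rw [h2] at h3
    change sg R p π a (sg R p π a (R.α i)) = _ at h3
    rw [h5, map_smul, h4, smul_smul, ← pow_add, ha] at h3
    exact (c.tw.pow_inj (hR.simple i) h3).symm
  have b1 := hR.B_inv hr.mem_W (R.α i) (R.α i)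
  have b2 := B_comb hR (-1) 0 (R.α j) (R.α j)
  have b3 := B_comb hR 1 1 (R.α i) (R.α j)
  have b4 := hR.pr_B (R.α i) j
  have b5 := hR.pr_B (R.α j) i
  have b6 := hR.B_pos (hR.sign _ (hR.simple i)).1
  have b7 := hR.B_pos (γ := (1 : ℤ) • R.α i + (1 : ℤ) • R.α j) fun d => by
    simpa [RS.α, hne.symm] using congrFun d i
  rw [zero_smul, add_zero, neg_one_smul, ← h, b1] at b2
  rw [pr_al] at b4 b5
  rw [hR.B_comm (R.α j)] at b5
  have b8 : R.B (R.α j) (R.α j) = R.B (R.α i) (R.α i) := by omega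
  rw [b8] at b3 b4
  have b9 : R.A j i = R.A i j := mul_right_cancel₀ b6.ne' (b5.trans b4.symm)
  have b10 : -2 < R.A i j := by nlinarith
  have b11 := hR.A_nonpos hne.symm
  have b12 : R.A i j ≠ 0 := fun d => by
    have s1 : (R.sE i * R.sE j) (R.α i) = -R.α i := by
      rw [LinearEquiv.mul_apply, hR.sE_apply j, RS.s, pr_al, d, zero_smul, sub_zero, hR.sE_α]
    have s2 : (R.sE i * R.sE j) (R.α j) = -R.α j := by
      rw [LinearEquiv.mul_apply, hR.sE_α, map_neg, hR.sE_apply, RS.s, pr_al, b9, d, zero_smul,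
        sub_zero]
    have s3 : ∀ m : ℕ, π^[m] i = i ∨ π^[m] i = j := fun m => by
      induction m with
      | zero => exact Or.inl rfl
      | succ m ih =>
        rw [Function.iterate_succ_apply']
        exact ih.elim (fun d => Or.inr (d.symm ▸ hπ.1)) fun d => Or.inl (d.symm ▸ hπ.2)
    have s4 : w = R.sE i * R.sE j := hR.Lg_unique hw ⟨mul_mem
      (RS.sE_mem (Equiv.Perm.SameCycle.refl π i)) (RS.sE_mem hj), fun l hl => by
        obtain ⟨m, rfl⟩ := hl.exists_nat_pow_eq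
        rw [Equiv.Perm.coe_pow]
        rcases s3 m with d | d
        · rw [d, s1]; exact neg_nonpos.2 (RS.α_nonneg _)
        · rw [d, s2]; exact neg_nonpos.2 (RS.α_nonneg _)⟩
    exact hne (RS.α_inj (neg_injective (h.symm.trans (s4 ▸ s1))))
  exact ⟨h', hπ.1, hπ.2, h2, ha, hf, by omega, by omega⟩

theorem unitary {n : G} {w : R.Aut} {i j : Fin R.r} (hn : n ∈ fixP p σ) (hr : Γ.Rep n w)
    (h : w (R.α i) = -R.α j) (h' : w (R.α j) = -R.α i) (hi : π i = j) (hj : π j = i)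
    (ha : a j = a i) (hij : R.A i j = -1) (hji : R.A j i = -1) : ∃ b : kˣ, ∀ r : kˣ,
      r ^ p ^ (a i + a i) = r → (r : k) + (r : k) ^ p ^ a i ≠ 0 →
      Γ.h i (b * r)⁻¹ * Γ.h j (b * r ^ p ^ a i)⁻¹ * (Γ.n i * Γ.n j * Γ.n i) ∈ fixP p σ := by
  obtain ⟨c1, h1⟩ := c.hΓ.rep_conj c.hR hr (c.hR.simple j)
  obtain ⟨c2, h2⟩ := c.hΓ.rep_conj c.hR hr (c.hR.simple i)
  refine ⟨c1 * c2, fun r hr1 hr2 => ?_⟩
  have hq : 0 < p ^ a i := pow_pos (Fact.out : p.Prime).pos _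
  obtain ⟨s, hs⟩ := IsAlgClosed.exists_pow_nat_eq ((r : k) + (r : k) ^ p ^ a i)
    (n := p ^ a i + 1) (Nat.succ_pos _)
  have hs0 : s ≠ 0 := fun d => hr2 (by rw [← hs, d, zero_pow (Nat.succ_ne_zero _)])
  have hr3 : ((r : k) ^ p ^ a i) ^ p ^ a i = r := by
    rw [← pow_mul, ← pow_add, ← Units.val_pow_eq_pow_val, hr1]
  have hs1 : (s ^ p ^ a i) ^ p ^ a i = s := by
    have h3 := congrArg (· ^ p ^ a i) hs
    simp only [add_pow_char_pow, hr3] at h3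
    rw [add_comm ((r : k) ^ p ^ a i), ← hs, pow_succ, mul_pow, mul_comm] at h3
    exact mul_left_cancel₀ (pow_ne_zero _ hs0) h3
  have hs2 : s ^ p ^ a i ≠ 0 := pow_ne_zero _ hs0
  have e1 : r / s ^ p ^ a i + (r : k) ^ p ^ a i / s ^ p ^ a i = s := by
    rw [← add_div, ← hs, pow_succ, mul_div_cancel_left₀ _ hs2]
  have xu : ∀ l (c' : k), Γ.x (R.α l) c' ∈ Γ.U := fun l c' =>
    RG.x_mem (c.hR.simple l) (RS.α_nonneg l) c'
  have hx : Γ.x (R.α j) (r / s ^ p ^ a i) * Γ.x (R.α i) (s ^ p ^ a i) *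
      Γ.x (R.α j) ((r : k) ^ p ^ a i / s ^ p ^ a i) ∈ fixP p σ := by
    refine U_mem c (mul_mem (mul_mem (xu _ _) (xu _ _)) (xu _ _)) ?_
    rw [map_mul, map_mul, c.hσ.pos, c.hσ.pos, c.hσ.pos, hi, hj, ha, hs1]
    refine (braid c.hR c.hΓ hji hij (div_ne_zero r.ne_zero hs2) hs0 e1 ?_ ?_).symm
    · rw [← add_pow_char_pow, e1]
    · rw [div_pow, hr3, hs1, mul_div_cancel₀ _ hs0, div_mul_cancel₀ _ hs2]
  lift s to kˣ using hs0.isUnit
  obtain ⟨u, hu, u', hu', h3⟩ := cell c.hR c.hΓ hij hji (c1 * (r / s ^ p ^ a i)) (c2 * s ^ p ^ a i)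
    (c1 * (r ^ p ^ a i / s ^ p ^ a i))
  have h4 := cell_mem c (mul_mem (mul_mem hn hx) (inv_mem hn)) hu (mul_mem (mul_mem
    (le_sup_left (a := Γ.T) (RG.h_mem _ _)) (le_sup_left (a := Γ.T) (RG.h_mem _ _)))
    (mul_mem (mul_mem (RG.n_mem _) (RG.n_mem _)) (RG.n_mem _))) hu' (Eq.trans (by
      simp only [Units.val_mul, Units.val_div_eq_div_val, Units.val_pow_eq_pow_val]
      rw [← h, ← h', ← (h1 _).1, ← (h1 _).1, ← (h2 _).1]
      group) h3)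
  convert h4 using 5
  · rw [mul_mul_mul_comm, div_mul_cancel]
  · rw [mul_mul_mul_comm, mul_div_cancel, mul_comm c2]

theorem tb (hJ : ∀ i, ∃ n ∈ fixP p σ, ∃ w, R.Lg {j | π.SameCycle i j} w ∧ Γ.Rep n w) {u : kˣ}
    (hu : IsPrimitiveRoot u (p ^ f - 1)) (i : Fin R.r) :
    ∃ t ∈ Γ.T ⊓ fixP p σ, ∀ γ, c.hΓ.chi γ t = u ^ (2 * R.pr (Sg R p π a e γ) i) := by
  obtain ⟨n, hn, w, hw, hr⟩ := hJ i
  obtain ⟨j, hj, h⟩ := c.hR.Lg_α hw (Equiv.Perm.SameCycle.refl π i)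
  have hp := (Fact.out : p.Prime).one_lt
  have hu1 : u ^ p ^ f = u := by
    rw [← Nat.sub_add_cancel (Nat.one_le_pow f p (by omega)), pow_succ, hu.pow_eq_one, one_mul]
  by_cases hne : j = i
  · exact tb_one c hn hr (c.hR.Lg_mul_self hw) (hne ▸ h) hu1
  obtain ⟨h', hi, hj, rfl, ha, rfl, hij, hji⟩ := dich c (fix_of_mem hn) hr hw hj hne h
  obtain ⟨b, hb⟩ := unitary c hn hr h h' hi hj ha hij hji
  have hq : 2 ≤ p ^ a i := Nat.one_lt_pow (by have := c.tw.fpos; omega) hp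
  have h0 : ∀ r : kˣ, IsPrimitiveRoot r (p ^ (a i + a i) - 1) →
      (r : k) + (r : k) ^ p ^ a i ≠ 0 := fun r h1 d => by
    rw [pow_add] at h1
    obtain ⟨q, hq'⟩ := Nat.exists_eq_add_of_le' hq
    rw [hq'] at h1 d
    have h2 : r ^ (2 * (q + 1)) = 1 := Units.ext (mul_left_cancel₀ (pow_ne_zero 2 r.ne_zero) (by
      rw [Units.val_pow_eq_pow_val, Units.val_one]
      linear_combination ((r : k) ^ (q + 2) - r) * d))
    have h3 := Nat.le_of_dvd (by omega) (h1.dvd_of_pow_eq_one _ h2)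
    rw [tsub_le_iff_right] at h3
    nlinarith
  have h1 := mul_mem (hb u⁻¹ (by rw [inv_pow, hu1]) (h0 _ hu.inv)) (inv_mem (hb u hu1 (h0 _ hu)))
  have hT := fun l v => RG.h_mem (Γ := Γ) l v
  rw [mul_inv_rev (_ * _ : G), mul_assoc, mul_inv_cancel_left] at h1
  refine ⟨_, mem_inf.2 ⟨mul_mem (mul_mem (hT _ _) (hT _ _)) (inv_mem (mul_mem (hT _ _) (hT _ _))),
    h1⟩, fun γ => ?_⟩
  have h2 : R.pr (Sg R p π a 2 γ) i = R.pr γ i + (p ^ a i : ℕ) * R.pr γ j := by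
    rw [Sg, Finset.sum_range_succ, Finset.sum_range_one, pr_add, Function.iterate_one, c.tw.pr_sg,
      hi, Nat.cast_pow]
    rfl
  rw [c.hΓ.chi_mul c.hR _ (mul_mem (hT _ _) (hT _ _)) (inv_mem (mul_mem (hT _ _) (hT _ _))),
    c.hΓ.chi_inv c.hR _ (mul_mem (hT _ _) (hT _ _)), c.hΓ.chi_mul c.hR _ (hT _ _) (hT _ _),
    c.hΓ.chi_mul c.hR _ (hT _ _) (hT _ _), h2, two_mul, zpow_add, zpow_add, zpow_mul, zpow_natCast]
  simp only [c.hΓ.chi_h c.hR, mul_inv, inv_pow, inv_inv, mul_zpow, inv_zpow]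
  refine Units.ext ?_
  simp only [Units.val_mul, Units.val_inv_eq_inv_val]
  field_simp

end Vale.Agent.P183CH4
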